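import Vale.Agent.P114.Bdl.B4

open scoped Classical ENNReal

open MeasureTheory

/-- The entropy-rate dimension conjecture (Q1), exact overlaps included, for every finite
system of contracting similarities of the line: the ratios `r i` are arbitrary nonzero real
numbers with `|r i| < 1`, the translations `t i` are arbitrary real numbers and the probability
vector `p` is arbitrary with positive entries. -/
theorem Vale.Agent.Results.P114.EntropyRateDimension.result
    {Λ : Type} [Fintype Λ] [Nonempty Λ]
    (r t p : Λ → ℝ) (hr0 : ∀ i, r i ≠ 0) (hr1 : ∀ i, |r i| < 1)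
    (hp : ∀ i, 0 < p i) (hp1 : ∑ i, p i = 1)
    (μ : Measure ℝ) (hμ : Vale.Agent.P114.IsSelfSimilar r t p μ) :
    Vale.Agent.P114.lowerDimH μ =
      ENNReal.ofReal (min 1 (Vale.Agent.P114.hRW r t p / Vale.Agent.P114.lyap r p)) := by
  by_cases h : ∃ i j, Irrational (Real.log |r i| / Real.log |r j|)
  · obtain ⟨i, j, h⟩ := h
    exact Vale.Agent.P114.main_irr r t p hr0 hr1 hp hp1 i j h μ hμ
  · push Not at h
    exact Vale.Agent.P114.Com.main_rational r t p hr0 hr1 h hp hp1 μ hμ
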